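import Crest.Agent.R098.UpperC

/-!
Row 98 (S0129): upper bound `lowerHausdorffDim μ ≤ min 1 (h/χ)`. (helper430)
Also exported: the `n`-step system with identified maps (`Gset`, `Gp`, ...), `composedMapEntropy_eq`.
-/

set_option autoImplicit false

namespace Crest.Agent.R098.Upper

open Finset MeasureTheory Crest.AnalysisR Filter
open scoped ENNReal NNReal Topology

variable {κ : Type*} [Fintype κ]

/-- the key (slope, value at 0) of the map of a word -/
noncomputable def key (r t : κ → ℝ) {n : ℕ} (w : Fin n → κ) : ℝ × ℝ := (pw r w, fw r t w 0)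

omit [Fintype κ] in
lemma fw_eq_iff (r t : κ → ℝ) {n m : ℕ} (w : Fin n → κ) (v : Fin m → κ) :
    fw r t w = fw r t v ↔ key r t w = key r t v := by
  constructor
  · intro h
    have h0 : fw r t w 0 = fw r t v 0 := by rw [h]
    have h1 : fw r t w 1 = fw r t v 1 := by rw [h]
    rw [fw_affine r t w 1, fw_affine r t v 1, h0] at h1
    simp only [key, Prod.mk.injEq]
    exact ⟨by linarith, h0⟩
  · intro h
    simp only [key, Prod.mk.injEq] at h
    funext x
    rw [fw_affine r t w x, fw_affine r t v x, h.1, h.2]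

open Classical in
/-- the finite set of composed maps of words of length n -/
noncomputable def Gset (r t : κ → ℝ) (n : ℕ) : Finset (ℝ × ℝ) :=
  univ.image (fun w : Fin n → κ => key r t w)

open Classical in
/-- the weight of a composed map -/
noncomputable def Gp (r t p : κ → ℝ) (n : ℕ) (g : {g // g ∈ Gset r t n}) : ℝ :=
  ∑ w ∈ univ.filter (fun w : Fin n → κ => key r t w = g.1), pw p w

noncomputable def Gr (r t : κ → ℝ) (n : ℕ) (g : {g // g ∈ Gset r t n}) : ℝ := g.1.1
noncomputable def Gt (r t : κ → ℝ) (n : ℕ) (g : {g // g ∈ Gset r t n}) : ℝ := g.1.2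

/-- word to its class -/
noncomputable def Gk (r t : κ → ℝ) {n : ℕ} (w : Fin n → κ) : {g // g ∈ Gset r t n} :=
  ⟨key r t w, by classical exact Finset.mem_image.mpr ⟨w, mem_univ _, rfl⟩⟩

lemma Gk_surj (r t : κ → ℝ) (n : ℕ) (g : {g // g ∈ Gset r t n}) : ∃ w : Fin n → κ, Gk r t w = g := by
  classical
  obtain ⟨w, -, hw⟩ := Finset.mem_image.mp g.2
  exact ⟨w, Subtype.ext hw⟩

open Classical in
/-- fibrewise summation -/
lemma sum_fib {M : Type*} [AddCommMonoid M] (r t : κ → ℝ) (n : ℕ) (F : (Fin n → κ) → M) :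
    ∑ w, F w = ∑ g : {g // g ∈ Gset r t n},
      ∑ w ∈ univ.filter (fun w : Fin n → κ => key r t w = g.1), F w := by
  rw [← Finset.sum_fiberwise (s := univ) (g := fun w : Fin n → κ => Gk r t w) (f := F)]
  refine Finset.sum_congr rfl fun g _ => ?_
  refine Finset.sum_congr ?_ fun _ _ => rfl
  ext w
  simp only [Finset.mem_filter, Finset.mem_univ, true_and]
  exact ⟨fun h => by rw [← h]; rfl, fun h => Subtype.ext h⟩

lemma Gp_pos {r t p : κ → ℝ} (hp : ∀ i, 0 < p i) (n : ℕ) (g : {g // g ∈ Gset r t n}) :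
    0 < Gp r t p n g := by
  classical
  obtain ⟨w, hw⟩ := Gk_surj r t n g
  refine Finset.sum_pos (fun w _ => Finset.prod_pos fun j _ => hp _) ⟨w, ?_⟩
  simp only [Finset.mem_filter, Finset.mem_univ, true_and]
  rw [← hw]; rfl

lemma Gp_sum {r t p : κ → ℝ} (hp1 : ∑ i, p i = 1) (n : ℕ) : ∑ g, Gp r t p n g = 1 := by
  classical
  rw [← sum_pw hp1 n, sum_fib r t n]; rfl

/-- expectation of a function of the class -/
lemma Gp_expect {r t p : κ → ℝ} (n : ℕ) (F : ℝ × ℝ → ℝ) :
    ∑ g, Gp r t p n g * F g.1 = ∑ w : Fin n → κ, pw p w * F (key r t w) := by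
  classical
  rw [sum_fib r t n]
  refine Finset.sum_congr rfl fun g _ => ?_
  rw [Gp, Finset.sum_mul]
  refine Finset.sum_congr rfl fun w hw => ?_
  rw [(Finset.mem_filter.mp hw).2]

omit [Fintype κ] in
lemma abs_pw_lt_one {r : κ → ℝ} (hr : ∀ i, |r i| < 1) {n : ℕ} (hn : 0 < n) (w : Fin n → κ) :
    |pw r w| < 1 := by
  obtain ⟨m, rfl⟩ : ∃ m, n = m + 1 := ⟨n - 1, by omega⟩
  obtain ⟨a, v, rfl⟩ : ∃ a v, w = Fin.cons a v := ⟨w 0, Fin.tail w, (Fin.cons_self_tail w).symm⟩
  rw [pw_cons, abs_mul]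
  have h2 : |pw r v| ≤ 1 := by
    rw [pw, Finset.abs_prod]
    exact Finset.prod_le_one (fun _ _ => abs_nonneg _) (fun j _ => (hr _).le)
  calc |r a| * |pw r v| ≤ |r a| * 1 := by gcongr
    _ < 1 := by rw [mul_one]; exact hr a

lemma Gr_ok {r t : κ → ℝ} (hr : ∀ i, r i ≠ 0 ∧ |r i| < 1) {n : ℕ} (hn : 0 < n)
    (g : {g // g ∈ Gset r t n}) : Gr r t n g ≠ 0 ∧ |Gr r t n g| < 1 := by
  obtain ⟨w, rfl⟩ := Gk_surj r t n g
  refine ⟨?_, abs_pw_lt_one (fun i => (hr i).2) hn w⟩
  show (∏ j, r (w j)) ≠ 0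
  exact Finset.prod_ne_zero_iff.mpr fun j _ => (hr _).1

lemma G_selfSimilar {r t p : κ → ℝ} (hp : ∀ i, 0 ≤ p i) {μ : Measure ℝ}
    (hμ : IsSelfSimilarMeasure r t p μ) (n : ℕ) :
    IsSelfSimilarMeasure (Gr r t n) (Gt r t n) (Gp r t p n) μ := by
  classical
  refine ⟨hμ.1, ?_⟩
  conv_lhs => rw [iter hp hμ.2 n, sum_fib r t n]
  refine Finset.sum_congr rfl fun g _ => ?_
  rw [Gp, ENNReal.ofReal_sum_of_nonneg (fun w _ => pw_nonneg hp w), Finset.sum_smul]
  refine Finset.sum_congr rfl fun w hw => ?_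
  congr 1
  have hk := (Finset.mem_filter.mp hw).2
  have : fw r t w = fun x => Gr r t n g * x + Gt r t n g := by
    funext x
    rw [fw_affine r t w x]
    have h1 : pw r w = g.1.1 := by rw [← hk]; rfl
    have h2 : fw r t w 0 = g.1.2 := by rw [← hk]; rfl
    rw [h1, h2]; rfl
  rw [this]

/-- the entropy of the composed map in terms of the identified system -/
lemma composedMapEntropy_eq (r t p : κ → ℝ) (n : ℕ) :
    composedMapEntropy r t p n = ∑ g, Gp r t p n g * (- Real.log (Gp r t p n g)) := by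
  classical
  have h1 : ∀ w : Fin n → κ, (∑ a', ({b : Fin n → κ | affineWordMap r t (List.ofFn b)
      = affineWordMap r t (List.ofFn w)} : Set (Fin n → κ)).indicator (fun w => ∏ j, p (w j)) a')
      = Gp r t p n (Gk r t w) := by
    intro w
    rw [Gp, Finset.sum_filter]
    refine Finset.sum_congr rfl fun v _ => ?_
    rw [Set.indicator_apply]
    have : (v ∈ {b : Fin n → κ | affineWordMap r t (List.ofFn b) = affineWordMap r t (List.ofFn w)})
        ↔ key r t v = (Gk r t w).1 := fw_eq_iff r t v w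
    simp only [this]; rfl
  rw [composedMapEntropy, finiteLawEntropy]
  simp_rw [h1]
  rw [← Finset.sum_neg_distrib, sum_fib r t n]
  refine Finset.sum_congr rfl fun g _ => ?_
  conv_rhs => rw [Gp, Finset.sum_mul]
  refine Finset.sum_congr rfl fun w hw => ?_
  have hk := (Finset.mem_filter.mp hw).2
  have : Gk r t w = g := Subtype.ext hk
  rw [this]
  show -(pw p w * Real.log (Gp r t p n g)) = pw p w * -Real.log (Gp r t p n g)
  ring

lemma G_lyapunov {r t p : κ → ℝ} (hr : ∀ i, r i ≠ 0) (hp1 : ∑ i, p i = 1) (n : ℕ) :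
    lyapunovExp (Gr r t n) (Gp r t p n) = n * lyapunovExp r p := by
  have e1 : lyapunovExp (Gr r t n) (Gp r t p n) = ∑ g, Gp r t p n g * (- Real.log |g.1.1|) := by
    simp [lyapunovExp, Gr, Finset.sum_neg_distrib]
  rw [e1, Gp_expect n (fun x => - Real.log |x.1|)]
  set Z : κ → ℝ := fun i => - Real.log |r i|
  set m := ∑ i, p i * Z i with hm
  have e2 : lyapunovExp r p = m := by simp [lyapunovExp, hm, Z, Finset.sum_neg_distrib]
  have hcen : ∑ i, p i * (Z i - m) = 0 := by
    simp_rw [mul_sub, Finset.sum_sub_distrib, ← Finset.sum_mul, hp1]; rw [← hm]; ring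
  have e3 : ∀ w : Fin n → κ, pw p w * (- Real.log |(key r t w).1|)
      = pw p w * sw (fun i => Z i - m) w + (n * m) * pw p w := by
    intro w
    have : - Real.log |(key r t w).1| = sw Z w := by
      show - Real.log |pw r w| = _
      rw [abs_pw hr, Real.log_exp, neg_neg]
    rw [this, sw_sub_const]; ring
  simp_rw [e3, Finset.sum_add_distrib, ← Finset.mul_sum, sum_pw_sw hp1 hcen, sum_pw hp1, e2]
  ring

/-- **Upper bound of S0129.** -/
theorem lowerHausdorffDim_le {r t p : κ → ℝ} [Nonempty κ] (hr : ∀ i, r i ≠ 0 ∧ |r i| < 1)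
    (hp : ∀ i, 0 < p i) (hp1 : ∑ i, p i = 1) {μ : Measure ℝ} (hμ : IsSelfSimilarMeasure r t p μ) :
    lowerHausdorffDim μ ≤ ENNReal.ofReal (min 1 (rwEntropyRate r t p / lyapunovExp r p)) := by
  have := hμ.1
  have hχ := lyap_pos hr hp
  have h1 : lowerHausdorffDim μ ≤ 1 := lowerDim_le_one μ
  have hfin : lowerHausdorffDim μ ≠ ⊤ := ne_top_of_le_ne_top ENNReal.one_ne_top h1
  set l := (lowerHausdorffDim μ).toReal with hl
  have hle : ENNReal.ofReal l = lowerHausdorffDim μ := ENNReal.ofReal_toReal hfin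
  have hl1 : l ≤ 1 := by
    rw [← hle, ← ENNReal.ofReal_one] at h1
    exact (ENNReal.ofReal_le_ofReal_iff (by norm_num)).mp h1
  have key1 : ∀ m : ℕ, l * lyapunovExp r p ≤ composedMapEntropy r t p (m+1) / ((m:ℝ)+1) := by
    intro m
    have hne : Nonempty {g // g ∈ Gset r t (m+1)} := by
      obtain ⟨a⟩ := ‹Nonempty κ›
      exact ⟨Gk r t (fun _ : Fin (m+1) => a)⟩
    have h2 := lowerDim_le_entropy (r := Gr r t (m+1)) (t := Gt r t (m+1)) (p := Gp r t p (m+1))
      (Gr_ok hr (Nat.succ_pos m)) (Gp_pos hp (m+1)) (Gp_sum hp1 (m+1))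
      (G_selfSimilar (fun i => (hp i).le) hμ (m+1))
    rw [← composedMapEntropy_eq, G_lyapunov (fun i => (hr i).1) hp1, ← hle] at h2
    have hH0 : 0 ≤ composedMapEntropy r t p (m+1) := by
      rw [composedMapEntropy_eq]
      refine Finset.sum_nonneg fun g _ => mul_nonneg (Gp_pos hp _ g).le ?_
      have h3 : Gp r t p (m+1) g ≤ 1 := by
        rw [← Gp_sum (r := r) (t := t) hp1 (m+1)]
        exact Finset.single_le_sum (fun j _ => (Gp_pos hp _ j).le) (mem_univ g)
      have := Real.log_nonpos (Gp_pos hp (m+1) g).le h3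
      linarith
    have hm : (0:ℝ) < (m:ℝ) + 1 := by positivity
    have hden : (0:ℝ) < ((m+1 : ℕ) : ℝ) * lyapunovExp r p := by push_cast; positivity
    rw [ENNReal.ofReal_le_ofReal_iff (by positivity)] at h2
    rw [le_div_iff₀ hden] at h2
    rw [le_div_iff₀ hm]
    push_cast at h2
    linarith
  have key2 : l * lyapunovExp r p ≤ rwEntropyRate r t p := le_ciInf key1
  rw [← hle]
  apply ENNReal.ofReal_le_ofReal
  exact le_min hl1 ((le_div_iff₀ hχ).mpr key2)

end Crest.Agent.R098.Upper
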