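import Crest.Prelude.Def_SelfSimilar

/-!
Row 98 (S0129): upper bound, part A. Words, weights, Chebyshev inequality for words.
(helper430)
-/

set_option autoImplicit false

namespace Crest.Agent.R098.Upper

open Finset

variable {κ : Type*} [Fintype κ]

/-- weight of a word -/
def pw (p : κ → ℝ) {k : ℕ} (w : Fin k → κ) : ℝ := ∏ j, p (w j)

/-- additive functional of a word -/
def sw (Y : κ → ℝ) {k : ℕ} (w : Fin k → κ) : ℝ := ∑ j, Y (w j)

omit [Fintype κ] in
lemma pw_nonneg {p : κ → ℝ} (hp : ∀ i, 0 ≤ p i) {k : ℕ} (w : Fin k → κ) : 0 ≤ pw p w :=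
  Finset.prod_nonneg fun _ _ => hp _

lemma sum_succ {k : ℕ} (F : (Fin (k+1) → κ) → ℝ) :
    ∑ w, F w = ∑ a : κ, ∑ w : Fin k → κ, F (Fin.cons a w) := by
  rw [← Fintype.sum_prod_type']
  exact (Fintype.sum_equiv (Fin.consEquiv fun _ => κ) _ _ (fun x => rfl)).symm

omit [Fintype κ] in
lemma pw_cons (p : κ → ℝ) {k : ℕ} (a : κ) (w : Fin k → κ) :
    pw p (Fin.cons a w : Fin (k+1) → κ) = p a * pw p w := by
  simp [pw, Fin.prod_univ_succ]

omit [Fintype κ] in
lemma sw_cons (Y : κ → ℝ) {k : ℕ} (a : κ) (w : Fin k → κ) :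
    sw Y (Fin.cons a w : Fin (k+1) → κ) = Y a + sw Y w := by
  simp [sw, Fin.sum_univ_succ]

lemma sum_pw {p : κ → ℝ} (hp1 : ∑ i, p i = 1) (k : ℕ) : ∑ w : Fin k → κ, pw p w = 1 := by
  induction k with
  | zero => simp [pw]
  | succ k ih =>
    rw [sum_succ]
    simp_rw [pw_cons, ← Finset.mul_sum, ih, mul_one, hp1]

lemma sum_pw_sw {p : κ → ℝ} (hp1 : ∑ i, p i = 1) {Y : κ → ℝ} (hY : ∑ i, p i * Y i = 0)
    (k : ℕ) : ∑ w : Fin k → κ, pw p w * sw Y w = 0 := by
  induction k with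
  | zero => simp [sw]
  | succ k ih =>
    rw [sum_succ]
    have : ∀ a : κ, ∑ w : Fin k → κ, pw p (Fin.cons a w : Fin (k+1) → κ) *
        sw Y (Fin.cons a w : Fin (k+1) → κ) = p a * Y a := by
      intro a
      simp_rw [pw_cons, sw_cons]
      have h1 : ∀ w : Fin k → κ, p a * pw p w * (Y a + sw Y w)
          = p a * Y a * pw p w + p a * (pw p w * sw Y w) := by intro w; ring
      simp_rw [h1, Finset.sum_add_distrib, ← Finset.mul_sum, ih, sum_pw hp1]
      ring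
    simp_rw [this, hY]

lemma sum_pw_sw_sq {p : κ → ℝ} (hp1 : ∑ i, p i = 1) {Y : κ → ℝ} (hY : ∑ i, p i * Y i = 0)
    (k : ℕ) : ∑ w : Fin k → κ, pw p w * (sw Y w) ^ 2 = k * ∑ i, p i * (Y i) ^ 2 := by
  induction k with
  | zero => simp [sw]
  | succ k ih =>
    rw [sum_succ]
    have : ∀ a : κ, ∑ w : Fin k → κ, pw p (Fin.cons a w : Fin (k+1) → κ) *
        (sw Y (Fin.cons a w : Fin (k+1) → κ)) ^ 2
          = p a * (Y a) ^ 2 + p a * (k * ∑ i, p i * (Y i) ^ 2) := by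
      intro a
      simp_rw [pw_cons, sw_cons]
      have h1 : ∀ w : Fin k → κ, p a * pw p w * (Y a + sw Y w) ^ 2
          = p a * (Y a) ^ 2 * pw p w + 2 * p a * Y a * (pw p w * sw Y w)
            + p a * (pw p w * (sw Y w) ^ 2) := by intro w; ring
      simp_rw [h1, Finset.sum_add_distrib, ← Finset.mul_sum, ih, sum_pw hp1, sum_pw_sw hp1 hY]
      ring
    simp_rw [this, Finset.sum_add_distrib, ← Finset.sum_mul, hp1]
    push_cast; ring

/-- Chebyshev for words -/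
lemma chebyshev {p : κ → ℝ} (hp : ∀ i, 0 ≤ p i) (hp1 : ∑ i, p i = 1) {Y : κ → ℝ}
    (hY : ∑ i, p i * Y i = 0) (k : ℕ) (hk : 0 < k) {δ : ℝ} (hδ : 0 < δ) :
    ∑ w ∈ (univ.filter fun w : Fin k → κ => k * δ ≤ |sw Y w|), pw p w
      ≤ (∑ i, p i * (Y i) ^ 2) / (k * δ ^ 2) := by
  have hk' : (0:ℝ) < k := by exact_mod_cast hk
  rw [le_div_iff₀ (by positivity)]
  have h1 := sum_pw_sw_sq hp1 hY k
  have h2 : ∑ w ∈ (univ.filter fun w : Fin k → κ => k * δ ≤ |sw Y w|), pw p w * (k * δ) ^ 2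
      ≤ ∑ w : Fin k → κ, pw p w * (sw Y w) ^ 2 := by
    refine (Finset.sum_le_sum (f := fun w => pw p w * (k * δ) ^ 2)
      (g := fun w => pw p w * (sw Y w) ^ 2) ?_).trans
      (Finset.sum_le_sum_of_subset_of_nonneg (Finset.filter_subset _ _)
        (fun w _ _ => mul_nonneg (pw_nonneg hp w) (sq_nonneg _)))
    intro w hw
    have hw' := (Finset.mem_filter.mp hw).2
    refine mul_le_mul_of_nonneg_left ?_ (pw_nonneg hp w)
    rw [← sq_abs (sw Y w)]
    exact pow_le_pow_left₀ (by positivity) hw' 2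
  rw [← Finset.sum_mul, h1] at h2
  have h3 : (∑ w ∈ (univ.filter fun w : Fin k → κ => k * δ ≤ |sw Y w|), pw p w) * (k * δ ^ 2) * k
      ≤ (∑ i, p i * (Y i) ^ 2) * k := by
    calc _ = (∑ w ∈ (univ.filter fun w : Fin k → κ => k * δ ≤ |sw Y w|), pw p w) * (k * δ) ^ 2 := by
            ring
      _ ≤ _ := by rw [mul_comm (∑ i, p i * (Y i) ^ 2)]; exact h2
  exact le_of_mul_le_mul_right h3 hk'

/-- typical words: both additive functionals are close to their means -/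
noncomputable def typ (X Z : κ → ℝ) (mX mZ δ : ℝ) (k : ℕ) : Finset (Fin k → κ) := by
  classical
  exact univ.filter fun w => |sw (fun i => X i - mX) w| < k * δ ∧ |sw (fun i => Z i - mZ) w| < k * δ

lemma typ_mass {p : κ → ℝ} (hp : ∀ i, 0 ≤ p i) (hp1 : ∑ i, p i = 1) (X Z : κ → ℝ)
    {δ : ℝ} (hδ : 0 < δ) (k : ℕ) (hk : 0 < k) :
    1 - (∑ i, p i * (X i - ∑ j, p j * X j) ^ 2 + ∑ i, p i * (Z i - ∑ j, p j * Z j) ^ 2) / (k * δ ^ 2)
      ≤ ∑ w ∈ typ X Z (∑ j, p j * X j) (∑ j, p j * Z j) δ k, pw p w := by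
  classical
  have hX : ∑ i, p i * (X i - ∑ j, p j * X j) = 0 := by
    simp_rw [mul_sub, Finset.sum_sub_distrib, ← Finset.sum_mul, hp1]; ring
  have hZ : ∑ i, p i * (Z i - ∑ j, p j * Z j) = 0 := by
    simp_rw [mul_sub, Finset.sum_sub_distrib, ← Finset.sum_mul, hp1]; ring
  have c1 := chebyshev hp hp1 hX k hk hδ
  have c2 := chebyshev hp hp1 hZ k hk hδ
  set A := (univ.filter fun w : Fin k → κ => k * δ ≤ |sw (fun i => X i - ∑ j, p j * X j) w|)
  set B := (univ.filter fun w : Fin k → κ => k * δ ≤ |sw (fun i => Z i - ∑ j, p j * Z j) w|)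
  set T := typ X Z (∑ j, p j * X j) (∑ j, p j * Z j) δ k
  have hcov : (univ : Finset (Fin k → κ)) ⊆ T ∪ (A ∪ B) := by
    intro w _
    by_cases h1 : |sw (fun i => X i - ∑ j, p j * X j) w| < k * δ
    · by_cases h2 : |sw (fun i => Z i - ∑ j, p j * Z j) w| < k * δ
      · apply Finset.mem_union_left
        simp only [T, typ, Finset.mem_filter, Finset.mem_univ, true_and]
        exact ⟨h1, h2⟩
      · apply Finset.mem_union_right; apply Finset.mem_union_right
        simp only [B, Finset.mem_filter, Finset.mem_univ, true_and]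
        exact not_lt.mp h2
    · apply Finset.mem_union_right; apply Finset.mem_union_left
      simp only [A, Finset.mem_filter, Finset.mem_univ, true_and]
      exact not_lt.mp h1
  have hsum : (1:ℝ) ≤ ∑ w ∈ T, pw p w + (∑ w ∈ A, pw p w + ∑ w ∈ B, pw p w) := by
    rw [← sum_pw hp1 k]
    refine (Finset.sum_le_sum_of_subset_of_nonneg hcov (fun w _ _ => pw_nonneg hp w)).trans ?_
    have u1 : ∑ w ∈ T ∪ (A ∪ B), pw p w ≤ ∑ w ∈ T, pw p w + ∑ w ∈ A ∪ B, pw p w := by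
      rw [← Finset.sum_union_inter (s₁ := T) (s₂ := A ∪ B)]
      exact le_add_of_nonneg_right (Finset.sum_nonneg fun w _ => pw_nonneg hp w)
    have u2 : ∑ w ∈ A ∪ B, pw p w ≤ ∑ w ∈ A, pw p w + ∑ w ∈ B, pw p w := by
      rw [← Finset.sum_union_inter (s₁ := A) (s₂ := B)]
      exact le_add_of_nonneg_right (Finset.sum_nonneg fun w _ => pw_nonneg hp w)
    linarith
  rw [add_div]
  linarith

omit [Fintype κ] in
lemma sw_sub_const (X : κ → ℝ) (m : ℝ) {k : ℕ} (w : Fin k → κ) :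
    sw (fun i => X i - m) w = sw X w - k * m := by
  simp [sw, Finset.sum_sub_distrib]

lemma mem_typ {X Z : κ → ℝ} {mX mZ δ : ℝ} {k : ℕ} {w : Fin k → κ} :
    w ∈ typ X Z mX mZ δ k ↔ |sw X w - k * mX| < k * δ ∧ |sw Z w - k * mZ| < k * δ := by
  classical
  simp only [typ, Finset.mem_filter, Finset.mem_univ, true_and, sw_sub_const]

omit [Fintype κ] in
lemma pw_eq_exp {p : κ → ℝ} (hp : ∀ i, 0 < p i) {k : ℕ} (w : Fin k → κ) :
    pw p w = Real.exp (- sw (fun i => - Real.log (p i)) w) := by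
  simp only [pw, sw, Finset.sum_neg_distrib, neg_neg]
  rw [Real.exp_sum]
  exact Finset.prod_congr rfl fun j _ => (Real.exp_log (hp _)).symm

/-- number of typical words -/
lemma card_typ {p : κ → ℝ} (hp : ∀ i, 0 < p i) (hp1 : ∑ i, p i = 1) (Z : κ → ℝ) (mZ : ℝ)
    (H δ : ℝ) (k : ℕ) :
    ((typ (fun i => - Real.log (p i)) Z H mZ δ k).card : ℝ) ≤ Real.exp (k * (H + δ)) := by
  have h1 : ∀ w ∈ typ (fun i => - Real.log (p i)) Z H mZ δ k, Real.exp (- (k * (H + δ))) ≤ pw p w := by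
    intro w hw
    rw [pw_eq_exp hp]
    apply Real.exp_le_exp.mpr
    have := (abs_lt.mp (mem_typ.mp hw).1).2
    linarith
  have h2 : ((typ (fun i => - Real.log (p i)) Z H mZ δ k).card : ℝ) * Real.exp (- (k * (H + δ))) ≤ 1 := by
    calc _ = ∑ w ∈ typ (fun i => - Real.log (p i)) Z H mZ δ k, Real.exp (- (k * (H + δ))) := by
            rw [Finset.sum_const, nsmul_eq_mul]
      _ ≤ ∑ w ∈ typ (fun i => - Real.log (p i)) Z H mZ δ k, pw p w := Finset.sum_le_sum h1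
      _ ≤ ∑ w : Fin k → κ, pw p w := Finset.sum_le_sum_of_subset_of_nonneg (Finset.subset_univ _)
            (fun w _ _ => pw_nonneg (fun i => (hp i).le) w)
      _ = 1 := sum_pw hp1 k
  rw [Real.exp_neg] at h2
  have := Real.exp_pos (k * (H + δ))
  rwa [mul_inv_le_iff₀ this, one_mul] at h2

end Crest.Agent.R098.Upper
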