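import Crest.Agent.R098.UpperA

/-!
Row 98 (S0129): upper bound, part B. Iterated self-similarity, compact support, Hausdorff measure of
the typical set. (helper430)
-/

set_option autoImplicit false

namespace Crest.Agent.R098.Upper

open Finset MeasureTheory Crest.AnalysisR Filter
open scoped ENNReal NNReal Topology

variable {κ : Type*} [Fintype κ]

/-- the affine map of a word -/
noncomputable def fw (r t : κ → ℝ) {k : ℕ} (w : Fin k → κ) : ℝ → ℝ := affineWordMap r t (List.ofFn w)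

omit [Fintype κ] in
lemma fw_cons (r t : κ → ℝ) {k : ℕ} (a : κ) (w : Fin k → κ) :
    fw r t (Fin.cons a w : Fin (k+1) → κ) = fun x => r a * fw r t w x + t a := by
  simp [fw, affineWordMap, List.ofFn_succ]

omit [Fintype κ] in
lemma fw_zero (r t : κ → ℝ) (w : Fin 0 → κ) : fw r t w = id := by
  simp [fw, affineWordMap]

omit [Fintype κ] in
lemma fw_affine (r t : κ → ℝ) {k : ℕ} (w : Fin k → κ) (x : ℝ) :
    fw r t w x = pw r w * x + fw r t w 0 := by
  induction k with
  | zero => simp [fw_zero, pw]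
  | succ k ih =>
    obtain ⟨a, v, rfl⟩ : ∃ a v, w = Fin.cons a v := ⟨w 0, Fin.tail w, (Fin.cons_self_tail w).symm⟩
    rw [fw_cons, pw_cons]
    simp only
    rw [ih v]
    ring

omit [Fintype κ] in
lemma measurable_fw (r t : κ → ℝ) {k : ℕ} (w : Fin k → κ) : Measurable (fw r t w) := by
  have : fw r t w = fun x => pw r w * x + fw r t w 0 := funext (fw_affine r t w)
  rw [this]
  exact (measurable_const.mul measurable_id).add measurable_const

lemma sum_succ' {M : Type*} [AddCommMonoid M] {k : ℕ} (F : (Fin (k+1) → κ) → M) :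
    ∑ w, F w = ∑ a : κ, ∑ w : Fin k → κ, F (Fin.cons a w) := by
  rw [← Fintype.sum_prod_type']
  exact (Fintype.sum_equiv (Fin.consEquiv fun _ => κ) _ _ (fun x => rfl)).symm

/-- iterated self-similarity -/
lemma iter {r t p : κ → ℝ} (hp : ∀ i, 0 ≤ p i) {μ : Measure ℝ}
    (hμ : μ = ∑ i, ENNReal.ofReal (p i) • μ.map (fun x : ℝ => r i * x + t i)) (k : ℕ) :
    μ = ∑ w : Fin k → κ, ENNReal.ofReal (pw p w) • μ.map (fw r t w) := by
  induction k with
  | zero =>
    simp [pw, fw_zero]
  | succ k ih =>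
    rw [sum_succ']
    conv_lhs => rw [hμ]
    refine Finset.sum_congr rfl fun a _ => ?_
    conv_lhs => rw [ih]
    have hm : Measurable (fun x : ℝ => r a * x + t a) :=
      (measurable_const.mul measurable_id).add measurable_const
    rw [Measure.map_finset_sum hm.aemeasurable, Finset.smul_sum]
    refine Finset.sum_congr rfl fun w _ => ?_
    rw [Measure.map_smul, Measure.map_map hm (measurable_fw r t w), smul_smul, pw_cons,
      ENNReal.ofReal_mul (hp a), fw_cons]
    rfl

/-- mass of a set -/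
lemma measure_iter {r t p : κ → ℝ} (hp : ∀ i, 0 ≤ p i) {μ : Measure ℝ}
    (hμ : μ = ∑ i, ENNReal.ofReal (p i) • μ.map (fun x : ℝ => r i * x + t i)) (k : ℕ)
    {S : Set ℝ} (hS : MeasurableSet S) :
    μ S = ∑ w : Fin k → κ, ENNReal.ofReal (pw p w) * μ (fw r t w ⁻¹' S) := by
  conv_lhs => rw [iter hp hμ k]
  rw [Measure.finsetSum_apply]
  refine Finset.sum_congr rfl fun w _ => ?_
  rw [Measure.smul_apply, Measure.map_apply (measurable_fw r t w) hS, smul_eq_mul]

/-- compact support: some ball has full measure -/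
lemma exists_ball {r t p : κ → ℝ} [Nonempty κ] (hr : ∀ i, |r i| < 1) (hp : ∀ i, 0 ≤ p i)
    (hp1 : ∑ i, p i = 1) {μ : Measure ℝ} [IsProbabilityMeasure μ]
    (hμ : μ = ∑ i, ENNReal.ofReal (p i) • μ.map (fun x : ℝ => r i * x + t i)) :
    ∃ R : ℝ, 0 < R ∧ μ (Metric.closedBall 0 R) = 1 := by
  obtain ⟨i0, -, hi0⟩ := Finset.exists_max_image (univ : Finset κ) (fun i => |r i|) univ_nonempty
  obtain ⟨j0, -, hj0⟩ := Finset.exists_max_image (univ : Finset κ) (fun i => |t i|) univ_nonempty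
  set ρ := |r i0| with hρ
  set τ := |t j0| with hτ
  have hρ1 : ρ < 1 := hr i0
  have hρ0 : 0 ≤ ρ := abs_nonneg _
  have hτ0 : 0 ≤ τ := abs_nonneg _
  have hrρ : ∀ i, |r i| ≤ ρ := fun i => hi0 i (mem_univ _)
  have htτ : ∀ i, |t i| ≤ τ := fun i => hj0 i (mem_univ _)
  set R := τ / (1 - ρ) + 1 with hR
  have h1ρ : 0 < 1 - ρ := by linarith
  have hR0 : 0 < R := by positivity
  have hkey : ρ * R + τ ≤ R - (1 - ρ) := by
    have : τ / (1 - ρ) * (1 - ρ) = τ := div_mul_cancel₀ _ h1ρ.ne'
    rw [hR]; nlinarith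
  -- μ (ball s) ≤ μ (ball (ρ s + τ))
  have hstep : ∀ s : ℝ, μ (Metric.closedBall 0 s) ≤ μ (Metric.closedBall 0 (ρ * s + τ)) := by
    intro s
    rw [measure_iter hp hμ 1 Metric.isClosed_closedBall.measurableSet (S := Metric.closedBall 0 (ρ * s + τ))]
    calc μ (Metric.closedBall 0 s) = (∑ w : Fin 1 → κ, ENNReal.ofReal (pw p w)) * μ (Metric.closedBall 0 s) := by
          rw [← ENNReal.ofReal_sum_of_nonneg (fun w _ => pw_nonneg hp w), sum_pw hp1]; simp
      _ = ∑ w : Fin 1 → κ, ENNReal.ofReal (pw p w) * μ (Metric.closedBall 0 s) := by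
          rw [Finset.sum_mul]
      _ ≤ _ := by
          refine Finset.sum_le_sum fun w _ => ?_
          gcongr
          intro x hx
          obtain ⟨a, v, rfl⟩ : ∃ a v, w = Fin.cons a v := ⟨w 0, Fin.tail w, (Fin.cons_self_tail w).symm⟩
          simp only [Set.mem_preimage, Metric.mem_closedBall, dist_zero_right, Real.norm_eq_abs] at hx ⊢
          rw [fw_cons, fw_zero]
          simp only [id]
          calc |r a * x + t a| ≤ |r a * x| + |t a| := abs_add_le _ _
            _ = |r a| * |x| + |t a| := by rw [abs_mul]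
            _ ≤ ρ * s + τ := add_le_add
              (mul_le_mul (hrρ a) hx (abs_nonneg _) hρ0) (htτ a)
  -- iterate
  have hiter : ∀ n : ℕ, μ (Metric.closedBall 0 (R + n * (1 - ρ))) ≤ μ (Metric.closedBall 0 R) := by
    intro n
    induction n with
    | zero => simp
    | succ n ih =>
      refine (hstep _).trans ((measure_mono (Metric.closedBall_subset_closedBall ?_)).trans ih)
      push_cast
      have hn : (0:ℝ) ≤ n := Nat.cast_nonneg n
      nlinarith [mul_nonneg hn h1ρ.le, mul_nonneg (mul_nonneg hn h1ρ.le) h1ρ.le]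
  refine ⟨R, hR0, le_antisymm prob_le_one ?_⟩
  have hmono : Monotone fun n : ℕ => Metric.closedBall (0:ℝ) (R + n * (1 - ρ)) := by
    intro m n hmn
    refine Metric.closedBall_subset_closedBall ?_
    have : (m:ℝ) ≤ n := by exact_mod_cast hmn
    nlinarith
  have hU : (⋃ n : ℕ, Metric.closedBall (0:ℝ) (R + n * (1 - ρ))) = Set.univ := by
    refine Set.eq_univ_of_forall fun x => ?_
    obtain ⟨n, hn⟩ := exists_nat_ge (|x| / (1 - ρ))
    refine Set.mem_iUnion.mpr ⟨n, ?_⟩
    simp only [Metric.mem_closedBall, dist_zero_right, Real.norm_eq_abs]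
    rw [div_le_iff₀ h1ρ] at hn
    linarith
  have ht := tendsto_measure_iUnion_atTop (μ := μ) hmono
  rw [hU, measure_univ] at ht
  exact le_of_tendsto' ht hiter

/-- the typical set at level k -/
noncomputable def Eset (r t : κ → ℝ) (X Z : κ → ℝ) (mX mZ δ : ℝ) (R : ℝ) (k : ℕ) : Set ℝ :=
  ⋃ w ∈ typ X Z mX mZ δ k, fw r t w '' Metric.closedBall 0 R

lemma isClosed_Eset (r t : κ → ℝ) (X Z : κ → ℝ) (mX mZ δ : ℝ) (R : ℝ) (k : ℕ) :
    IsClosed (Eset r t X Z mX mZ δ R k) := by
  refine Set.Finite.isClosed_biUnion (Finset.finite_toSet _) fun w _ => ?_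
  have hc : Continuous (fw r t w) := by
    have : fw r t w = fun x => pw r w * x + fw r t w 0 := funext (fw_affine r t w)
    rw [this]; fun_prop
  exact ((isCompact_closedBall (0:ℝ) R).image hc).isClosed

lemma measure_Eset {r t p : κ → ℝ} (hp : ∀ i, 0 ≤ p i) {μ : Measure ℝ}
    (hμ : μ = ∑ i, ENNReal.ofReal (p i) • μ.map (fun x : ℝ => r i * x + t i))
    {R : ℝ} (hR : μ (Metric.closedBall 0 R) = 1) (X Z : κ → ℝ) (mX mZ δ : ℝ) (k : ℕ) :
    ENNReal.ofReal (∑ w ∈ typ X Z mX mZ δ k, pw p w) ≤ μ (Eset r t X Z mX mZ δ R k) := by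
  rw [measure_iter hp hμ k (isClosed_Eset r t X Z mX mZ δ R k).measurableSet,
    ENNReal.ofReal_sum_of_nonneg (fun w _ => pw_nonneg hp w)]
  refine le_trans ?_ (Finset.sum_le_sum_of_subset (Finset.subset_univ (typ X Z mX mZ δ k)))
  refine Finset.sum_le_sum fun w hw => ?_
  have : 1 ≤ μ (fw r t w ⁻¹' Eset r t X Z mX mZ δ R k) := by
    rw [← hR]
    refine measure_mono fun x hx => ?_
    exact Set.mem_biUnion hw (Set.mem_image_of_mem _ hx)
  calc ENNReal.ofReal (pw p w) = ENNReal.ofReal (pw p w) * 1 := (mul_one _).symm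
    _ ≤ _ := by gcongr

end Crest.Agent.R098.Upper
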