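import Crest.Agent.R098.UpperB

/-!
Row 98 (S0129): upper bound, part C. `lowerHausdorffDim μ ≤ H(p)/χ` without identification of maps.
(helper430)
-/

set_option autoImplicit false

namespace Crest.Agent.R098.Upper

open Finset MeasureTheory Crest.AnalysisR Filter
open scoped ENNReal NNReal Topology

variable {κ : Type*} [Fintype κ]

omit [Fintype κ] in
lemma abs_pw {r : κ → ℝ} (hr : ∀ i, r i ≠ 0) {k : ℕ} (w : Fin k → κ) :
    |pw r w| = Real.exp (- sw (fun i => - Real.log |r i|) w) := by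
  rw [← pw_eq_exp (p := fun i => |r i|) (fun i => abs_pos.mpr (hr i)) w]
  simp [pw, Finset.abs_prod]

/-- key estimate: for `d` with `d (χ - δ) > H + δ` there is a set of measure ≥ 1/2 with zero `μH[d]` -/
lemma exists_set {r t p : κ → ℝ} [Nonempty κ] (hr : ∀ i, r i ≠ 0 ∧ |r i| < 1) (hp : ∀ i, 0 < p i)
    (hp1 : ∑ i, p i = 1) {μ : Measure ℝ} [IsProbabilityMeasure μ]
    (hμ : μ = ∑ i, ENNReal.ofReal (p i) • μ.map (fun x : ℝ => r i * x + t i))
    {δ d : ℝ} (hδ : 0 < δ) (hd : 0 ≤ d)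
    (hdd : (∑ i, p i * (- Real.log (p i))) + δ < d * ((∑ i, p i * (- Real.log |r i|)) - δ)) :
    ∃ E : Set ℝ, MeasurableSet E ∧ 0 < μ E ∧ μH[d] E = 0 := by
  classical
  obtain ⟨R, hR0, hR⟩ := exists_ball (fun i => (hr i).2) (fun i => (hp i).le) hp1 hμ
  set X : κ → ℝ := fun i => - Real.log (p i)
  set Z : κ → ℝ := fun i => - Real.log |r i|
  set H := ∑ i, p i * X i with hH
  set χ := ∑ i, p i * Z i with hχ
  set V := (∑ i, p i * (X i - ∑ j, p j * X j) ^ 2 + ∑ i, p i * (Z i - ∑ j, p j * Z j) ^ 2) with hV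
  have hV0 : 0 ≤ V := by
    apply add_nonneg <;> exact Finset.sum_nonneg fun i _ => mul_nonneg (hp i).le (sq_nonneg _)
  -- sparse levels
  have hlev : ∀ j : ℕ, ∃ k : ℕ, j + 1 ≤ k ∧ V / (k * δ ^ 2) ≤ (1/2)^(j+2) := by
    intro j
    obtain ⟨k, hk⟩ := exists_nat_ge (V / (δ^2 * (1/2)^(j+2)) + (j + 1))
    have hpos : (0:ℝ) < δ^2 * (1/2)^(j+2) := by positivity
    have hVd : 0 ≤ V / (δ^2 * (1/2)^(j+2)) := by positivity
    have hk1 : j + 1 ≤ k := by
      have : ((j:ℝ) + 1) ≤ k := by linarith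
      exact_mod_cast this
    refine ⟨k, hk1, ?_⟩
    have hk0 : (0:ℝ) < k := by
      have : ((j:ℝ) + 1) ≤ k := by exact_mod_cast hk1
      have hj : (0:ℝ) ≤ j := Nat.cast_nonneg j
      linarith
    rw [div_le_iff₀ (by positivity)]
    have h2 : V / (δ^2 * (1/2)^(j+2)) ≤ k := by
      have hj : (0:ℝ) ≤ j := Nat.cast_nonneg j
      linarith
    rw [div_le_iff₀ hpos] at h2
    calc V ≤ k * (δ ^ 2 * (1 / 2) ^ (j + 2)) := h2
      _ = _ := by ring
  choose K hK1 hK2 using hlev
  set E : Set ℝ := ⋂ j, Eset r t X Z H χ δ R (K j) with hE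
  have hEm : MeasurableSet E := MeasurableSet.iInter fun j =>
    (isClosed_Eset r t X Z H χ δ R (K j)).measurableSet
  have hcompl : ∀ j, μ (Eset r t X Z H χ δ R (K j))ᶜ ≤ ENNReal.ofReal ((1/2)^(j+2)) := by
    intro j
    have h1 : ENNReal.ofReal (1 - (1/2)^(j+2)) ≤ μ (Eset r t X Z H χ δ R (K j)) := by
      refine (ENNReal.ofReal_le_ofReal ?_).trans
        (measure_Eset (fun i => (hp i).le) hμ hR X Z H χ δ (K j))
      have := typ_mass (fun i => (hp i).le) hp1 X Z hδ (K j) (by have := hK1 j; omega)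
      have h3 := hK2 j
      rw [hV] at h3
      linarith
    rw [prob_compl_eq_one_sub (isClosed_Eset r t X Z H χ δ R (K j)).measurableSet]
    calc 1 - μ (Eset r t X Z H χ δ R (K j)) ≤ 1 - ENNReal.ofReal (1 - (1/2)^(j+2)) :=
          tsub_le_tsub_left h1 _
      _ = ENNReal.ofReal ((1/2)^(j+2)) := by
          rw [← ENNReal.ofReal_one, ← ENNReal.ofReal_sub _ (by
            have : ((1:ℝ)/2)^(j+2) ≤ 1 := pow_le_one₀ (by norm_num) (by norm_num)
            linarith)]
          congr 1; ring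
  have hEc : μ Eᶜ ≤ ENNReal.ofReal (1/2) := by
    rw [hE, Set.compl_iInter]
    refine (measure_iUnion_le _).trans ?_
    refine (ENNReal.tsum_le_tsum hcompl).trans ?_
    rw [← ENNReal.ofReal_tsum_of_nonneg (fun j => by positivity)]
    · apply ENNReal.ofReal_le_ofReal
      have : ∀ j : ℕ, ((1:ℝ)/2)^(j+2) = (1/4) * (1/2)^j := by intro j; ring
      simp_rw [this]
      rw [tsum_mul_left, tsum_geometric_two]
      norm_num
    · have : ∀ j : ℕ, ((1:ℝ)/2)^(j+2) = (1/4) * (1/2)^j := by intro j; ring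
      simp_rw [this]
      exact (summable_geometric_two).mul_left _
  have hEpos : 0 < μ E := by
    by_contra h
    have h0 : μ E = 0 := le_antisymm (not_lt.mp h) zero_le
    have h1 : μ Eᶜ = 1 := by
      rw [prob_compl_eq_one_sub hEm, h0]; simp
    rw [h1, ← ENNReal.ofReal_one, ENNReal.ofReal_le_ofReal_iff (by norm_num)] at hEc
    norm_num at hEc
  refine ⟨E, hEm, hEpos, ?_⟩
  -- Hausdorff measure
  have hχδ : 0 < χ - δ := by
    by_contra hcon
    have hHd : 0 ≤ H := Finset.sum_nonneg fun i _ => mul_nonneg (hp i).le (by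
      have : p i ≤ 1 := by
        rw [← hp1]; exact Finset.single_le_sum (fun j _ => (hp j).le) (mem_univ i)
      have := Real.log_nonpos (hp i).le this
      simp only [X]; linarith)
    have : d * (χ - δ) ≤ 0 := mul_nonpos_of_nonneg_of_nonpos hd (not_lt.mp hcon)
    linarith
  have hdiam : ∀ (k : ℕ) (w : {w // w ∈ typ X Z H χ δ k}),
      Metric.ediam (fw r t w.1 '' Metric.closedBall 0 R) ≤ ENNReal.ofReal (2 * R * Real.exp (- (k * (χ - δ)))) := by
    intro k w
    refine Metric.ediam_le fun x hx y hy => ?_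
    obtain ⟨u, hu, rfl⟩ := hx
    obtain ⟨v, hv, rfl⟩ := hy
    rw [edist_dist, Real.dist_eq, fw_affine r t w.1 u, fw_affine r t w.1 v]
    apply ENNReal.ofReal_le_ofReal
    have h1 : pw r w.1 * u + fw r t w.1 0 - (pw r w.1 * v + fw r t w.1 0) = pw r w.1 * (u - v) := by ring
    rw [h1, abs_mul, abs_pw (fun i => (hr i).1)]
    have hu' : |u| ≤ R := by simpa using hu
    have hv' : |v| ≤ R := by simpa using hv
    have h2 : |u - v| ≤ 2 * R := by
      calc |u - v| ≤ |u| + |v| := abs_sub _ _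
        _ ≤ 2 * R := by linarith
    have h3 : Real.exp (- sw Z w.1) ≤ Real.exp (- (k * (χ - δ))) := by
      apply Real.exp_le_exp.mpr
      have := (abs_lt.mp (mem_typ.mp w.2).2).1
      linarith
    calc Real.exp (- sw Z w.1) * |u - v| ≤ Real.exp (- (k * (χ - δ))) * (2 * R) := by
          gcongr
      _ = _ := by ring
  have hKinf : Tendsto K atTop atTop := tendsto_atTop_mono (fun j => (by have := hK1 j; omega : j ≤ K j)) tendsto_id
  have hKr : Tendsto (fun j => (K j : ℝ)) atTop atTop := tendsto_natCast_atTop_atTop.comp hKinf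
  have hr0 : Tendsto (fun j => ENNReal.ofReal (2 * R * Real.exp (- (K j * (χ - δ))))) atTop (𝓝 0) := by
    rw [← ENNReal.ofReal_zero]
    apply ENNReal.tendsto_ofReal
    have : Tendsto (fun j => Real.exp (- (K j * (χ - δ)))) atTop (𝓝 0) := by
      apply Real.tendsto_exp_neg_atTop_nhds_zero.comp
      exact hKr.atTop_mul_const hχδ
    simpa using this.const_mul (2 * R)
  have hmain := Measure.hausdorffMeasure_le_liminf_sum (ι := fun j => {w // w ∈ typ X Z H χ δ (K j)})
    d E (l := atTop) _ hr0 (fun j w => fw r t w.1 '' Metric.closedBall 0 R)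
    (Eventually.of_forall fun j w => hdiam (K j) w)
    (Eventually.of_forall fun j x hx => by
      have hx' := Set.mem_iInter.mp hx j
      obtain ⟨w, hw, hxw⟩ := Set.mem_iUnion₂.mp hx'
      exact Set.mem_iUnion.mpr ⟨⟨w, hw⟩, hxw⟩)
  refine le_antisymm (hmain.trans ?_) zero_le
  have hbound : ∀ j, ∑ w : {w // w ∈ typ X Z H χ δ (K j)},
      Metric.ediam (fw r t w.1 '' Metric.closedBall 0 R) ^ d
      ≤ ENNReal.ofReal ((2 * R) ^ d * Real.exp (- (K j * (d * (χ - δ) - (H + δ))))) := by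
    intro j
    calc ∑ w : {w // w ∈ typ X Z H χ δ (K j)}, Metric.ediam (fw r t w.1 '' Metric.closedBall 0 R) ^ d
        ≤ ∑ w : {w // w ∈ typ X Z H χ δ (K j)},
          ENNReal.ofReal (2 * R * Real.exp (- (K j * (χ - δ)))) ^ d := by
          refine Finset.sum_le_sum fun w _ => ?_
          exact ENNReal.rpow_le_rpow (hdiam (K j) w) hd
      _ = ((typ X Z H χ δ (K j)).card : ℝ≥0∞) *
            ENNReal.ofReal (2 * R * Real.exp (- (K j * (χ - δ)))) ^ d := by
          rw [Finset.sum_const, nsmul_eq_mul]; simp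
      _ ≤ ENNReal.ofReal (Real.exp (K j * (H + δ))) *
            ENNReal.ofReal ((2 * R * Real.exp (- (K j * (χ - δ)))) ^ d) := by
          rw [ENNReal.ofReal_rpow_of_nonneg (by positivity) hd]
          gcongr
          rw [← ENNReal.ofReal_natCast]
          exact ENNReal.ofReal_le_ofReal (card_typ hp hp1 Z χ H δ (K j))
      _ = _ := by
          rw [← ENNReal.ofReal_mul (by positivity)]
          congr 1
          rw [Real.mul_rpow (by positivity) (by positivity), ← Real.exp_mul]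
          rw [mul_comm, mul_assoc, ← Real.exp_add]
          congr 2
          ring
  have hlim : Tendsto (fun j => ENNReal.ofReal ((2 * R) ^ d * Real.exp (- (K j * (d * (χ - δ) - (H + δ)))))) atTop (𝓝 0) := by
    rw [← ENNReal.ofReal_zero]
    apply ENNReal.tendsto_ofReal
    have : Tendsto (fun j => Real.exp (- (K j * (d * (χ - δ) - (H + δ))))) atTop (𝓝 0) := by
      apply Real.tendsto_exp_neg_atTop_nhds_zero.comp
      exact hKr.atTop_mul_const (by linarith)
    simpa using this.const_mul ((2 * R) ^ d)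
  exact (liminf_le_liminf (Eventually.of_forall hbound)).trans hlim.liminf_eq.le

/-- lower Hausdorff dimension is at most 1 -/
lemma lowerDim_le_one (μ : Measure ℝ) [IsProbabilityMeasure μ] : lowerHausdorffDim μ ≤ 1 := by
  refine (iInf_le _ Set.univ).trans ((iInf_le _ MeasurableSet.univ).trans ((iInf_le _ ?_).trans ?_))
  · simp
  · rw [Real.dimH_univ]

lemma lyap_pos {r p : κ → ℝ} [Nonempty κ] (hr : ∀ i, r i ≠ 0 ∧ |r i| < 1) (hp : ∀ i, 0 < p i) :
    0 < lyapunovExp r p := by
  have : lyapunovExp r p = ∑ i, p i * (- Real.log |r i|) := by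
    simp [lyapunovExp, Finset.sum_neg_distrib]
  rw [this]
  refine Finset.sum_pos (fun i _ => mul_pos (hp i) ?_) univ_nonempty
  have := Real.log_neg (abs_pos.mpr (hr i).1) (hr i).2
  linarith

/-- upper bound without identification of maps -/
theorem lowerDim_le_entropy {r t p : κ → ℝ} [Nonempty κ] (hr : ∀ i, r i ≠ 0 ∧ |r i| < 1)
    (hp : ∀ i, 0 < p i) (hp1 : ∑ i, p i = 1) {μ : Measure ℝ} (hμ : IsSelfSimilarMeasure r t p μ) :
    lowerHausdorffDim μ ≤ ENNReal.ofReal ((∑ i, p i * (- Real.log (p i))) / lyapunovExp r p) := by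
  have := hμ.1
  set H := ∑ i, p i * (- Real.log (p i)) with hH
  have hχ0 := lyap_pos hr hp
  have hχe : lyapunovExp r p = ∑ i, p i * (- Real.log |r i|) := by
    simp [lyapunovExp, Finset.sum_neg_distrib]
  set χ := lyapunovExp r p with hχ
  have hH0 : 0 ≤ H := Finset.sum_nonneg fun i _ => mul_nonneg (hp i).le (by
      have : p i ≤ 1 := by
        rw [← hp1]; exact Finset.single_le_sum (fun j _ => (hp j).le) (mem_univ i)
      have := Real.log_nonpos (hp i).le this
      linarith)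
  refine ENNReal.le_of_forall_pos_le_add fun ε hε _ => ?_
  set d : ℝ := H / χ + ε with hd
  have hd0 : 0 ≤ d := by positivity
  have hε' : (0:ℝ) < ε := hε
  -- choose δ
  have hex : ∃ δ : ℝ, 0 < δ ∧ H + δ < d * (χ - δ) := by
    refine ⟨ε * χ / (2 * (1 + d)), by positivity, ?_⟩
    have h1 : d * χ = H + ε * χ := by rw [hd]; field_simp
    have h2 : (1 + d) * (ε * χ / (2 * (1 + d))) = ε * χ / 2 := by
      field_simp
    have h3 : 0 < ε * χ := by positivity
    nlinarith
  obtain ⟨δ, hδ, hδd⟩ := hex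
  rw [hχe] at hδd
  obtain ⟨E, hEm, hEp, hE0⟩ := exists_set hr hp hp1 hμ.2 hδ hd0 hδd
  have h1 : lowerHausdorffDim μ ≤ dimH E :=
    (iInf_le _ E).trans ((iInf_le _ hEm).trans (iInf_le _ hEp))
  refine h1.trans ?_
  have h2 : dimH E ≤ ((Real.toNNReal d : ℝ≥0) : ℝ≥0∞) := by
    apply dimH_le_of_hausdorffMeasure_ne_top
    rw [Real.coe_toNNReal d hd0, hE0]; simp
  refine h2.trans ?_
  have h3 : ((Real.toNNReal d : ℝ≥0) : ℝ≥0∞) = ENNReal.ofReal d := rfl
  rw [h3, hd, ENNReal.ofReal_add (by positivity) hε'.le, ENNReal.ofReal_coe_nnreal]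

end Crest.Agent.R098.Upper
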